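import Vale.Agent.P366DB.Mu4
import Vale.Agent.P366DB.Defs
import Vale.Agent.P366MM.Co

/-!
# P366BV: the measure of the area constraint lives inside the sphere
-/

open MeasureTheory Set Filter Topology
open scoped ContDiff
open Vale.Agent.P366M Vale.Agent.P366K Vale.Agent.P366MM Vale.Agent.P366DB

noncomputable section

namespace Vale.Agent.P366BV

variable {n : ℕ} {M : Type} [Mfe n M] {g : Fld n M} {D : Exterior n M} {m κ R1 R2 ε c l a δ : ℝ}
  {P : Fin n → ℝ} {X Y Z : Fin n → M → ℝ} {W : Type} [MeasurableSpace W] {π : W → M}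
  {ν : W → Fin n → ℝ} {α β : Measure W} {η : Measure M}

theorem gp_le (hg : Met g) (Y : Fin n → M → ℝ) (x : M) (e : Fin n → ℝ) :
    2 * gp g Y x e ≤ P366MM.sq g x (fun i => Y i x) + P366MM.sq g x e := by
  have h0 := hg.g_nonneg x fun i => Y i x - e i
  have h1 : ∑ i, ∑ j, g x i j * e i * Y j x = gp g Y x e := by
    rw [gp, Finset.sum_comm]
    exact Finset.sum_congr rfl fun i _ => Finset.sum_congr rfl fun j _ => by
      rw [hg.sy x j i]; ring
  have h2 : ∑ i, ∑ j, g x i j * (Y i x - e i) * (Y j x - e j) = P366MM.sq g x (fun i => Y i x) +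
      P366MM.sq g x e - gp g Y x e - ∑ i, ∑ j, g x i j * e i * Y j x := by
    simp only [P366MM.sq, gp, ← Finset.sum_add_distrib, ← Finset.sum_sub_distrib]
    exact Finset.sum_congr rfl fun i _ => Finset.sum_congr rfl fun j _ => by ring
  linarith

omit [Mfe n M] in
theorem gp_smul (g : Fld n M) (f : M → ℝ) (Y : Fin n → M → ℝ) (x : M) (e : Fin n → ℝ) :
    gp g (fun i y => f y * Y i y) x e = f x * gp g Y x e := by
  simp only [gp, Finset.mul_sum]
  exact Finset.sum_congr rfl fun i _ => Finset.sum_congr rfl fun j _ => by ring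

theorem gp_abs (hg : Met g) (Y : Fin n → M → ℝ) (x : M) (e : Fin n → ℝ) :
    |gp g Y x e| ≤ (P366MM.sq g x (fun i => Y i x) + P366MM.sq g x e) / 2 := by
  have h1 := gp_le hg Y x e
  have h2 := gp_le hg (fun i y => -1 * Y i y) x e
  rw [gp_smul, sq_smul] at h2
  exact abs_le.2 ⟨by linarith, by linarith⟩

theorem cont_sq (hg : Met g) (hY : CV ∞ Y) :
    Continuous fun x => P366MM.sq g x fun i => Y i x := by
  have e : ∀ x, P366MM.sq g x (fun i => Y i x) = gp g Y x fun i => Y i x := fun _ => rfl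
  simp only [e, gp_eq g hg.sy]
  exact Smooth.cont ((hg.sm.lower le_rfl hY).dot hY)

theorem int_gp (hM : Mm D m P κ R1 R2 ε Z π ν α β η c l) (hY : CV ∞ Y) :
    Integrable (fun w => gp D.g Y (π w) (ν w)) β := by
  have := hM.fβ
  obtain ⟨B, hB⟩ := (isCompact_px M R2).exists_bound_of_continuousOn
    (cont_sq D.met hY).continuousOn
  refine Integrable.of_bound ?_ ((B + 1) / 2) (hM.sβ.mono fun w hw => ?_)
  · simp only [gp_eq D.g D.met.sy]
    exact (hM.m1 _ ((D.met.sm.lower le_rfl hY).of_le zero_le)).aestronglyMeasurable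
  · have h1 := gp_abs D.met Y (π w) (ν w)
    have h2 := (le_abs_self _).trans (hB _ hw)
    rw [hM.unit] at h1
    exact h1.trans (by linarith)

/-- almost optimal fields -/
structure Gd (D : Exterior n M) (R1 a δ : ℝ) (Z Y : Fin n → M → ℝ) : Prop where
  a0 : 0 ≤ a
  a1 : a < 1
  sm : CV ∞ Y
  far : ∀ x : M, R1 ≤ ‖px x‖ → ∀ i, Y i x = a * Z i x
  ins : ∀ x ∈ Ins D R1, P366MM.sq D.g x (fun i => Y i x) ≤ 1
  opt : D.Amin.toReal - δ < Lf D R1 Y

theorem pos_of (hM : Mm D m P κ R1 R2 ε Z π ν α β η c l) (hβ : β ≠ 0) :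
    0 < c * κ ∧ 0 < D.Amin.toReal := by
  have := hM.fβ
  have h1 : 0 < β.real univ := by
    refine lt_of_le_of_ne measureReal_nonneg fun h => hβ ?_
    exact Measure.measure_univ_eq_zero.1 ((measureReal_eq_zero_iff (measure_ne_top _ _)).1 h.symm)
  rw [hM.mass, ← mul_assoc] at h1
  rcases pos_and_pos_or_neg_and_neg_of_mul_pos h1 with h | h
  exacts [h, absurd h.2 ENNReal.toReal_nonneg.not_gt]

theorem exists_gd (hO : Opt D R1 Z) (hA : 0 < D.Amin.toReal) :
    ∃ a, ∀ δ > 0, ∃ Y, Gd D R1 a δ Z Y := by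
  obtain ⟨a, a0, a1, h⟩ := hO
  refine ⟨a, fun δ hδ => ?_⟩
  obtain ⟨Y, h1, h2, h3, h4⟩ := h (D.Amin.toReal - δ) (by
    conv_rhs => rw [← ENNReal.ofReal_toReal (ENNReal.toReal_pos_iff.1 hA).2.ne]
    exact (ENNReal.ofReal_lt_ofReal_iff hA).2 (by linarith))
  exact ⟨Y, a0, a1, h1, h2, h3, h4⟩

theorem Gd.out (hY : Gd D R1 a δ Z Y) (hC : Cal D R1 R2 Z) {x : M} (hx : R1 ≤ ‖px x‖) :
    P366MM.sq D.g x (fun i => Y i x) ≤ a ^ 2 := by
  simp only [hY.far x hx]
  rw [sq_smul]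
  exact mul_le_of_le_one_right (sq_nonneg a) (hC.le1 x hx)

theorem Gd.le (hY : Gd D R1 a δ Z Y) (hC : Cal D R1 R2 Z) {x : M} (hx : 0 ≤ D.F x) :
    P366MM.sq D.g x (fun i => Y i x) ≤ 1 := by
  rcases le_total R1 ‖px x‖ with h | h
  · exact (hY.out hC h).trans (pow_le_one₀ hY.a0 hY.a1.le)
  · exact hY.ins x ⟨hx, h⟩

theorem Gd.gp1 (hY : Gd D R1 a δ Z Y) (hC : Cal D R1 R2 Z)
    (hM : Mm D m P κ R1 R2 ε Z π ν α β η c l) (w : W) : 0 ≤ 1 - gp D.g Y (π w) (ν w) := by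
  have h1 := gp_le D.met Y (π w) (ν w)
  rw [hM.unit] at h1
  linarith [hY.le hC (hM.dom w)]

theorem Gd.slack (hY : Gd D R1 a δ Z Y) (hM : Mm D m P κ R1 R2 ε Z π ν α β η c l)
    (hs : 0 < c * κ) : ∫ w, (1 - gp D.g Y (π w) (ν w)) ∂β ≤ c * κ * δ := by
  have := hM.fβ
  have h1 := hM.area Y ⟨hY.sm, a, hY.a0, hY.far⟩
  rw [integral_sub (integrable_const _) (int_gp hM hY.sm), integral_const, hM.mass, smul_eq_mul]
  nlinarith [mul_le_mul_of_nonneg_left hY.opt.le hs.le]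

theorem le_of_small {x y s : ℝ} (hs : 0 ≤ s) (h : ∀ δ > 0, x ≤ y + s * δ) : x ≤ y := by
  refine le_of_forall_pos_le_add fun θ hθ => (h (θ / (s + 1)) (by positivity)).trans ?_
  rw [add_le_add_iff_left, ← mul_div_assoc, div_le_iff₀ (by positivity)]
  nlinarith

/-- **the measure lives inside the sphere** -/
theorem inside (hC : Cal D R1 R2 Z) (hM : Mm D m P κ R1 R2 ε Z π ν α β η c l) (hs : 0 < c * κ)
    (hY : ∀ δ > 0, ∃ Y, Gd D R1 a δ Z Y) : ∀ᵐ w ∂β, ‖px (π w)‖ < R1 := by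
  have := hM.fβ
  obtain ⟨_, k⟩ := hY 1 one_pos
  have a0 : 0 < (1 - a ^ 2) / 2 := by nlinarith [k.a0, k.a1]
  have h : (1 - a ^ 2) / 2 * β.real {w | ¬‖px (π w)‖ < R1} ≤ 0 :=
    le_of_small hs.le fun δ hδ => by
      obtain ⟨Y, hY⟩ := hY δ hδ
      rw [zero_add]
      refine le_trans (mul_le_mul_of_nonneg_left (measureReal_mono fun w hw => ?_) a0.le)
        ((mul_meas_ge_le_integral_of_nonneg (.of_forall (hY.gp1 hC hM))
          ((integrable_const _).sub (int_gp hM hY.sm)) _).trans (hY.slack hM hs))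
      have h1 := gp_le D.met Y (π w) (ν w)
      rw [hM.unit] at h1
      rw [mem_ofPred_eq]
      linarith [hY.out hC (not_lt.1 hw)]
  exact ae_iff.2 ((measureReal_eq_zero_iff (measure_ne_top _ _)).1
    (le_antisymm (nonpos_of_mul_nonpos_right h a0) measureReal_nonneg))

end Vale.Agent.P366BV
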