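import Vale.Agent.P366BV.B1

/-!
# P366BV: the measure of the area constraint as the boundary of a function
-/

open MeasureTheory Set Filter Topology
open scoped ContDiff
open Vale.Agent.P366M Vale.Agent.P366K Vale.Agent.P366MM Vale.Agent.P366DB
open Vale.Agent.P366Z.Lk (th th' sm_th hd_th th'_nonneg th_one th_ev)

noncomputable section

namespace Vale.Agent.P366BV

variable {n : ℕ} {M : Type} [Mfe n M] {g : Fld n M} {D : Exterior n M} {m κ R1 R2 ε c l a δ s : ℝ}
  {P : Fin n → ℝ} {X Y Z : Fin n → M → ℝ} {W : Type} [MeasurableSpace W] {π : W → M}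
  {ν : W → Fin n → ℝ} {α β : Measure W} {η : Measure M} {v : M → ℝ}

/-- the dual function -/
structure Du (D : Exterior n M) (R1 s : ℝ) (Z : Fin n → M → ℝ) (π : W → M) (ν : W → Fin n → ℝ)
    (β : Measure W) (v : M → ℝ) : Prop where
  ms : Measurable v
  bd : ∀ x, v x ∈ Icc (0 : ℝ) 1
  v0 : ∀ x, D.F x < 0 → v x = 0
  v1 : ∀ x, R1 < ‖px x‖ → v x = 1
  le : ∀ Y, Tf R1 Z Y → s * (fx D.g R1 Y - ∫ x in Ins D R1, v x * (dv D.g Y x * dens D.g x)) ≤
    ∫ w, gp D.g Y (π w) (ν w) ∂β

theorem r1_pos (hC : Cal D R1 R2 Z) : 0 < R1 := by linarith [hC.R0, R0_ge M]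

theorem exists_du (hC : Cal D R1 R2 Z) (hM : Mm D m P κ R1 R2 ε Z π ν α β η c l)
    (hs : 0 < c * κ) : ∃ v, Du D R1 (c * κ) Z π ν β v := by
  classical
  have hK := cpt_ins D R1
  have mK := meas_ins D R1
  have : IsFiniteMeasure (volume.restrict (Ins D R1)) := ⟨by simpa using hK.measure_lt_top⟩
  obtain ⟨v, v1, v2, v3⟩ := dom M (volume.restrict (Ins D R1)) {Y // Tf R1 Z Y}
    (fun Y x => dv D.g Y.1 x * dens D.g x)
    (fun Y => fx D.g R1 Y.1 - (∫ w, gp D.g Y.1 (π w) (ν w) ∂β) / (c * κ))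
    (fun Y => by
      obtain ⟨C, hC⟩ := hK.exists_bound_of_continuousOn (cont_dvd D.met Y.2.sm).continuousOn
      exact MemLp.of_bound (cont_dvd D.met Y.2.sm).aestronglyMeasurable C
        ((ae_restrict_mem mK).mono hC))
    (fun X Y a b ha hb hab => ⟨⟨_, tf_lc ha hb X.2 Y.2⟩, .of_forall fun x => by
      simp only [D.met.dv_add ((CV.smul cd_const X.2.sm).dv (by simp) x)
        ((CV.smul cd_const Y.2.sm).dv (by simp) x), dv_const_mul]
      ring, by
      simp only [fx_lin D.met (r1_pos hC) X.2.sm Y.2.sm, gp_lc]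
      rw [integral_add ((int_gp hM X.2.sm).const_mul a) ((int_gp hM Y.2.sm).const_mul b),
        integral_const_mul, integral_const_mul]
      exact le_of_eq (by ring)⟩)
    fun Y => by
      have := hM.area Y.1 Y.2
      simp only [Lf, max_mul_of_nonneg _ _ (dens_nonneg _ _), zero_mul, ← mul_assoc] at this
      rw [sub_le_comm, le_div_iff₀' hs]
      exact this
  refine ⟨fun x => if R1 < ‖px x‖ then 1 else (Ins D R1).indicator v x,
    Measurable.ite (meas_lt_px R1) measurable_const (v1.indicator mK), fun x => ?_,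
    fun x hx => ?_, fun x hx => if_pos hx, fun Y hY => ?_⟩
  · simp only [indicator]
    split_ifs
    exacts [⟨zero_le_one, le_rfl⟩, v2 x, ⟨le_rfl, zero_le_one⟩]
  · rw [if_neg fun k => (hC.pos x (by linarith)).not_gt hx,
      indicator_of_notMem fun k => hx.not_ge k.1]
  · have h1 := v3 ⟨Y, hY⟩
    rw [sub_le_comm, le_div_iff₀' hs] at h1
    refine le_trans (le_of_eq ?_) h1
    rw [setIntegral_congr_fun mK fun x hx => ?_]
    simp only [if_neg hx.2.not_gt, indicator_of_mem hx]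

theorem int_vd (hv : Measurable v) (v1 : ∀ x, v x ∈ Icc (0 : ℝ) 1) {μ : Measure M} {f : M → ℝ}
    (h : Integrable f μ) : Integrable (fun x => v x * f x) μ :=
  h.bdd_mul (c := 1) hv.aestronglyMeasurable (.of_forall fun x =>
    (abs_of_nonneg (v1 x).1).trans_le (v1 x).2)

/-- the inequality holds for the fields which cross the sphere -/
theorem Du.all (hv : Du D R1 s Z π ν β v) (hC : Cal D R1 R2 Z)
    (hM : Mm D m P κ R1 R2 ε Z π ν α β η c l) (hs : 0 ≤ s) (hi : ∀ᵐ w ∂β, ‖px (π w)‖ < R1)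
    (hY : CV ∞ Y) (hY1 : ∀ x ∈ Ins D R1, P366MM.sq D.g x (fun i => Y i x) ≤ 1) :
    s * (fx D.g R1 Y - ∫ x in Ins D R1, v x * (dv D.g Y x * dens D.g x)) ≤
      ∫ w, gp D.g Y (π w) (ν w) ∂β := by
  have r8 := R0_ge M
  have hR := hC.R0
  have hR0 := r1_pos hC
  have hK := cpt_ins D R1
  have mK := meas_ins D R1
  have hq : Smooth (rq : M → ℝ) := contDiff_normSq
  obtain ⟨η, hη⟩ : ∃ η : ℕ → M → ℝ, η = fun k x => th k (rq x - R1 ^ 2) := ⟨_, rfl⟩
  have e0 : ∀ k, Smooth (η k) := fun k => hη ▸ (sm_th k).compM (CD.sub hq cd_const)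
  have e1 : ∀ k x, 0 ≤ η k x := fun k x => hη ▸ Real.smoothTransition.nonneg _
  have e2 : ∀ k x, η k x ≤ 1 := fun k x => hη ▸ Real.smoothTransition.le_one _
  have e3 : ∀ k x, ‖px x‖ < R1 - 1 → η k x = 0 := fun k x hx => hη ▸
    Real.smoothTransition.zero_of_nonpos (by
      have h1 : rq x - R1 ^ 2 ≤ -1 := by
        unfold rq
        nlinarith [norm_nonneg (px x)]
      nlinarith [Nat.cast_nonneg (α := ℝ) k])
  have e4 : ∀ (x : M) (t : ℝ), ‖px x‖ < R1 → Tendsto (fun k => η k x * t) atTop (𝓝 0) :=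
    fun x t hx => tendsto_const_nhds.congr' ((th_ev (show rq x - R1 ^ 2 < 0 by
      unfold rq
      nlinarith [norm_nonneg (px x)])).mono fun k hk => by simp only [hη, hk, zero_mul])
  have e5 : ∀ k x (t : ℝ), ‖η k x * t‖ ≤ ‖t‖ := fun k x t => by
    rw [norm_mul]
    exact mul_le_of_le_one_left (norm_nonneg _) ((abs_of_nonneg (e1 k x)).trans_le (e2 k x))
  have hd : CV ∞ fun i x => Z i x - Y i x := hC.sm.sub hY
  have c1 : Continuous fun x => |dv D.g (fun i x => Z i x - Y i x) x| * dens D.g x :=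
    (D.met.sm_dv hd).cont.abs.mul D.met.sm_dens.cont
  have i1 := c1.continuousOn.integrableOn_compact (μ := volume) hK
  have i2 : ∀ k, IntegrableOn (fun x => η k x *
      (|dv D.g (fun i x => Z i x - Y i x) x| * dens D.g x)) (Ins D R1) := fun k =>
    ((e0 k).cont.mul c1).continuousOn.integrableOn_compact hK
  have ht := tendsto_integral_of_dominated_convergence (f := fun _ => (0 : ℝ)) _
    (fun k => (i2 k).1) i1.norm (fun k => .of_forall fun x => e5 k x _) (by
      filter_upwards [ae_restrict_of_ae (ae_ne (M := M) (R := R1) (by linarith)),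
        ae_restrict_mem mK] with x h1 h2 using e4 x _ (lt_of_le_of_ne h2.2 h1))
  have hT : ∀ k, CV ∞ fun i x => η k x * (Z i x - Y i x) := fun k => CV.smul (e0 k) hd
  have j1 := fun k => int_gp hM (hT k)
  simp only [gp_smul] at j1
  have hb := tendsto_integral_of_dominated_convergence (f := fun _ => (0 : ℝ)) _
    (fun k => (j1 k).1) (int_gp hM hd).norm (fun k => .of_forall fun w => e5 k _ _)
    (hi.mono fun w hw => e4 _ _ hw)
  have hl := ((ht.const_mul s).add hb).const_add (∫ w, gp D.g Y (π w) (ν w) ∂β)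
  simp only [integral_zero, mul_zero, add_zero] at hl
  refine ge_of_tendsto' hl fun k => ?_
  have h1 := hv.le (fun i x => 1 * Y i x + 1 * (η k x * (Z i x - Y i x)))
    ⟨(CV.smul cd_const hY).add (CV.smul cd_const (hT k)), 1, zero_le_one, fun x hx i => by
      have : η k x = 1 := hη ▸ th_one k (by unfold rq; nlinarith)
      simp [this]⟩
  have f1 : fx D.g R1 (fun i x => η k x * (Z i x - Y i x)) =
      ∫ x in Ins D R1, dv D.g (fun i x => η k x * (Z i x - Y i x)) x * dens D.g x := by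
    rw [fx_eq D.met hR0 (hT k)]
    refine setIntegral_eq_of_subset_of_forall_sdiff_eq_zero (meas_px_le R1) (fun _ h => h.2)
      fun x hx => ?_
    have h1 : ‖px x‖ < R1 - 1 := not_le.1 fun l => hx.2 ⟨(hC.pos x l).le, hx.1⟩
    rw [dv_congr (Y := fun i y => 0 * Y i y) fun i => (ev_px_lt h1).mono fun z hz => by
      simp only [e3 k z hz, zero_mul], dv_const_mul, zero_mul, zero_mul]
  have i3 : ∀ {X : Fin n → M → ℝ}, CV ∞ X → IntegrableOn
      (fun x => dv D.g X x * dens D.g x) (Ins D R1) := fun h =>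
    (cont_dvd D.met h).continuousOn.integrableOn_compact hK
  have i4 := int_vd hv.ms hv.bd (i3 hY)
  have f2 := setIntegral_mono_on (int_vd hv.ms hv.bd (i3 ((CV.smul (cd_const (c := 1)) hY).add
      (CV.smul (cd_const (c := 1)) (hT k))))) ((i4.add (i2 k)).add (i3 (hT k))) mK fun x hx => by
    have h0 : 0 ≤ ∑ i, pd i (η k) x * (Z i x - Y i x) := by
      by_cases h : ‖px x‖ < R1 - 1
      · simp [pd_of_isLocalMin (.of_forall fun y => (e3 k x h).trans_le (e1 k y))]
      · have h1 : ∀ i, pd i (η k) x = th' k (rq x - R1 ^ 2) * pd i rq x := fun i => by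
          rw [hη, pd_comp (f := fun x => rq x - R1 ^ 2) (hd_th k _) ((hq.diff x).sub_const _),
            pd_sub_const]
        have h2 := (le_abs_self _).trans (cs D.met x (fun i => pd i rq x) _ (hY1 x hx))
        simp only [h1, mul_assoc, ← Finset.mul_sum]
        simp only [hC.col x (not_lt.1 h) hx.2, mul_sub, Finset.sum_sub_distrib, dot_nrm]
        exact sub_nonneg.2 (mul_le_mul_of_nonneg_left h2 (th'_nonneg _ _))
    simp only [Pi.add_apply, one_mul, D.met.dv_add (hY.dv (by simp) x) ((hT k).dv (by simp) x),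
      D.met.dv_smul ((e0 k).diff x) (hd.dv (by simp) x), ← mul_assoc, ← add_mul]
    refine mul_le_mul_of_nonneg_right ?_ (dens_nonneg _ _)
    have k1 := sub_nonneg.2 (hv.bd x).2
    nlinarith [mul_nonneg k1 h0, mul_nonneg k1 (mul_nonneg (e1 k x)
      (sub_nonneg.2 (neg_abs_le (dv D.g (fun i x => Z i x - Y i x) x)))),
      mul_nonneg (hv.bd x).1 (mul_nonneg (e1 k x)
        (abs_nonneg (dv D.g (fun i x => Z i x - Y i x) x)))]
  rw [integral_add' (i4.add (i2 k)) (i3 (hT k)), integral_add' i4 (i2 k)] at f2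
  simp only [fx_lin D.met hR0 hY (hT k), f1, gp_lc, gp_smul] at h1
  simp only [one_mul] at h1 f2
  rw [integral_add (int_gp hM hY) (j1 k)] at h1
  nlinarith [mul_le_mul_of_nonneg_left f2 hs]

/-- **the measure is the boundary of the dual function** -/
theorem Du.cur (hv : Du D R1 s Z π ν β v) (hC : Cal D R1 R2 Z)
    (hM : Mm D m P κ R1 R2 ε Z π ν α β η c l) (hs : 0 ≤ s) (hi : ∀ᵐ w ∂β, ‖px (π w)‖ < R1)
    (hX : CV ∞ X) {ρ : ℝ} (hρ : ∀ x, ρ < ‖px x‖ → ∀ i, X i x = 0) :
    ∫ w, gp D.g X (π w) (ν w) ∂β = -(s * ∫ x, v x * (dv D.g X x * dens D.g x)) := by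
  have mK := meas_ins D R1
  have i1 := int_dvd D.met hX hρ
  have h2 := integral_compl_dvd D.met hX hρ (meas_lt_px R1)
  rw [show {x : M | R1 < ‖px x‖}ᶜ = {x : M | ‖px x‖ ≤ R1} from Set.ext fun x => not_lt (a := R1),
    ← fx_eq D.met (r1_pos hC) hX] at h2
  have e : ∫ x, v x * (dv D.g X x * dens D.g x) =
      (∫ x in {x : M | R1 < ‖px x‖}, dv D.g X x * dens D.g x) +
        ∫ x in Ins D R1, v x * (dv D.g X x * dens D.g x) := by
    rw [← integral_indicator mK, ← integral_indicator (meas_lt_px R1),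
      ← integral_add (i1.indicator (meas_lt_px R1)) ((int_vd hv.ms hv.bd i1).indicator mK)]
    refine integral_congr_ae (.of_forall fun x => ?_)
    by_cases hx : R1 < ‖px x‖
    · have : x ∉ Ins D R1 := fun k => hx.not_ge k.2
      simp [hx, this, hv.v1 x hx]
    · by_cases hx' : x ∈ Ins D R1
      · simp [hx, hx']
      · simp [hx, hx', hv.v0 x (not_le.1 fun k => hx' ⟨k, not_lt.1 hx⟩)]
  obtain ⟨B, hB⟩ := (cpt_ins D R1).exists_bound_of_continuousOn (cont_sq D.met hX).continuousOn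
  have b0 : 0 < |B| + 1 := by positivity
  have k : ∀ t : ℝ, t ^ 2 = (|B| + 1)⁻¹ ^ 2 → s * (t * fx D.g R1 X -
      t * ∫ x in Ins D R1, v x * (dv D.g X x * dens D.g x)) ≤
        t * ∫ w, gp D.g X (π w) (ν w) ∂β := fun t ht => by
    have h1 := hv.all hC hM hs hi (CV.smul (cd_const (c := t)) hX) fun x hx => by
      have h3 := ((le_abs_self _).trans (hB x hx)).trans (le_abs_self B)
      rw [sq_smul, ht, inv_pow, inv_mul_le_iff₀ (by positivity)]
      nlinarith [abs_nonneg B]
    simp only [fx_eq D.met (r1_pos hC) (CV.smul (cd_const (c := t)) hX), dv_const_mul, gp_smul,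
      mul_assoc, mul_left_comm _ t, integral_const_mul] at h1
    rwa [fx_eq D.met (r1_pos hC) hX]
  have k1 := k _ rfl
  have k2 := k _ (neg_sq _)
  rw [e]
  refine mul_left_cancel₀ (inv_pos.2 b0).ne' ?_
  rw [h2] at k1 k2
  linarith

end Vale.Agent.P366BV
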