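import Vale.Agent.P366BV.B2
import Vale.Agent.P366SB.Cst

/-!
# P366BV: the bounds for the source
-/

open MeasureTheory Set Filter Topology
open scoped ContDiff
open Vale.Agent.P366M Vale.Agent.P366K Vale.Agent.P366MM Vale.Agent.P366DB

noncomputable section

namespace Vale.Agent.P366BV

variable {n : ℕ} {M : Type} [Mfe n M] {g : Fld n M} {D : Exterior n M} {m κ R1 R2 ε c l a δ s : ℝ}
  {P : Fin n → ℝ} {X Y Z : Fin n → M → ℝ} {W : Type} [MeasurableSpace W] {π : W → M}
  {ν : W → Fin n → ℝ} {α β : Measure W} {η : Measure M} {v φ : M → ℝ}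

theorem int_gn (hg : Met g) (hφ : Smooth φ) (φc : HasCompactSupport φ) :
    Integrable fun x => gn g φ x * dens g x :=
  ((hg.cont_gn (CD.of_le hφ oo1)).mul hg.sm_dens.cont).integrable_of_hasCompactSupport
    (.intro φc fun x hx => by simp [gn_eq_covNorm, covNorm, pd_zero_of_notMem hx])

/-- the slack of the dual function -/
theorem Du.slack (hv : Du D R1 (c * κ) Z π ν β v) (hC : Cal D R1 R2 Z)
    (hM : Mm D m P κ R1 R2 ε Z π ν α β η c l) (hs : 0 < c * κ) (hY : Gd D R1 a δ Z Y) :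
    ∫ x in Ins D R1, (max (dv D.g Y x) 0 - v x * dv D.g Y x) * dens D.g x ≤ δ := by
  have := hM.fβ
  have h1 := hv.le Y ⟨hY.sm, a, hY.a0, hY.far⟩
  have h2 : 0 ≤ ∫ w, (1 - gp D.g Y (π w) (ν w)) ∂β := integral_nonneg (hY.gp1 hC hM)
  have h3 := hY.opt
  rw [integral_sub (integrable_const _) (int_gp hM hY.sm), integral_const, hM.mass, smul_eq_mul,
    mul_one, ← mul_assoc] at h2
  simp only [sub_mul, mul_assoc]
  rw [integral_sub (int_max D R1 hY.sm) (int_vd hv.ms hv.bd
    ((cont_dvd D.met hY.sm).continuousOn.integrableOn_compact (cpt_ins D R1)))]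
  unfold Lf at h3
  refine le_of_mul_le_mul_left ?_ hs
  nlinarith [mul_le_mul_of_nonneg_left h3.le hs.le]

/-- **the bound** -/
theorem Du.fin (hv : Du D R1 (c * κ) Z π ν β v) (hC : Cal D R1 R2 Z)
    (hM : Mm D m P κ R1 R2 ε Z π ν α β η c l) (hs : 0 < c * κ) (hi : ∀ᵐ w ∂β, ‖px (π w)‖ < R1)
    (hY : ∀ δ > 0, ∃ Y, Gd D R1 a δ Z Y) (hφ : Smooth φ) (φc : HasCompactSupport φ)
    (φ0 : ∀ x, 0 ≤ φ x) {t : ℝ} (t0 : 0 ≤ t) (t1 : t ≤ 1) {S : Set M} (mS : MeasurableSet S)
    (h1 : ∀ᵐ x, x ∉ S → v x = t) (h2 : ∀ x, D.F x < 0 → t = 0 ∨ x ∉ tsupport φ) :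
    ∫ w, φ (π w) ∂β ≤ c * κ * ∫ x in S, gn D.g φ x * dens D.g x := by
  have := hM.fβ
  have mK := meas_ins D R1
  obtain ⟨C, hφC⟩ := hφ.cont.bounded_above_of_compact_support φc
  have φ1 : ∀ x, φ x ≤ |C| := fun x => ((le_abs_self _).trans (hφC x)).trans (le_abs_self C)
  obtain ⟨ρ, -, hρ⟩ := out_of_supp φc
  refine le_of_small (s := 2 * (c * κ) * |C|) (by positivity) fun δ hδ => ?_
  obtain ⟨Y, hY⟩ := hY δ hδ
  have hX := CV.smul hφ hY.sm
  have X0 : ∀ x, ρ < ‖px x‖ → ∀ i, φ x * Y i x = 0 := fun x hx i => by rw [hρ x hx.le, zero_mul]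
  have k1 := hv.cur hC hM hs.le hi hX X0
  have k2 := integral_dvd D.met hX X0
  have i1 := int_dvd D.met hX X0
  have i2 := int_vd hv.ms hv.bd i1
  have i3 := int_gp hM hX
  have i4 := (integrable_const (1 : ℝ)).sub (int_gp hM hY.sm)
  have i5 : IntegrableOn (fun x => (max (dv D.g Y x) 0 - v x * dv D.g Y x) * dens D.g x)
      (Ins D R1) := by
    simp only [sub_mul, mul_assoc]
    exact (int_max D R1 hY.sm).sub (int_vd hv.ms hv.bd
      ((cont_dvd D.met hY.sm).continuousOn.integrableOn_compact (cpt_ins D R1)))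
  have i6 := (int_gn D.met hφ φc).indicator mS
  have i7 := (i5.integrable_indicator mK).const_mul |C|
  have k3 := integral_mono (Integrable.of_bound
    (hφ.cont.measurable.comp hM.mπ).aestronglyMeasurable C (.of_forall fun w => hφC _))
    (i3.add (i4.const_mul |C|)) fun w => by
      simp only [gp_smul, Pi.add_apply, Pi.sub_apply, Function.comp]
      nlinarith [mul_nonneg (sub_nonneg.2 (φ1 (π w))) (hY.gp1 hC hM w)]
  have k4 := integral_mono_ae ((i1.const_mul t).sub i2) (i6.add i7) (h1.mono fun x hx => by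
    have d0 := dens_nonneg D.g x
    obtain ⟨v0, v1⟩ := hv.bd x
    have p1 : (t - v x) * (∑ i, pd i φ x * Y i x) * dens D.g x ≤
        S.indicator (fun x => gn D.g φ x * dens D.g x) x := by
      by_cases h : x ∈ S
      · rw [indicator_of_mem h]
        refine mul_le_mul_of_nonneg_right ?_ d0
        rcases le_or_gt 0 (D.F x) with k | k
        · have h3 := abs_le.1 (cs D.met x (fun i => pd i φ x) _ (hY.le hC k))
          change -gn D.g φ x ≤ _ ∧ _ ≤ gn D.g φ x at h3
          nlinarith [mul_nonneg (sub_nonneg.2 h3.1) (show 0 ≤ 1 - (t - v x) by linarith),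
            mul_nonneg (sub_nonneg.2 h3.2) (show 0 ≤ 1 + (t - v x) by linarith)]
        · rcases h2 x k with q | q
          · simp [q, hv.v0 x k, gn_nonneg]
          · simp [pd_zero_of_notMem q, gn_nonneg]
      · simp [h, hx h]
    have p2 : (t - v x) * (φ x * dv D.g Y x) * dens D.g x ≤ |C| * (Ins D R1).indicator
        (fun x => (max (dv D.g Y x) 0 - v x * dv D.g Y x) * dens D.g x) x := by
      by_cases h : x ∈ Ins D R1
      · rw [indicator_of_mem h, ← mul_assoc |C|]
        refine mul_le_mul_of_nonneg_right ?_ d0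
        have m1 := sub_nonneg.2 (le_max_left (dv D.g Y x) 0)
        have m2 := le_max_right (dv D.g Y x) 0
        have m3 : ∀ u, 0 ≤ u → u ≤ 1 → 0 ≤ max (dv D.g Y x) 0 - u * dv D.g Y x := fun u u0 u1 => by
          nlinarith [mul_nonneg u0 m1, mul_nonneg (sub_nonneg.2 u1) m2]
        nlinarith [mul_nonneg (sub_nonneg.2 (φ1 x)) (m3 _ v0 v1), mul_nonneg (φ0 x) (m3 _ t0 t1)]
      · rw [indicator_of_notMem h, mul_zero]
        refine mul_nonpos_of_nonpos_of_nonneg ?_ d0
        by_cases k : R1 < ‖px x‖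
        · rw [hv.v1 x k, dv_congr (Y := fun i y => a * Z i y) fun i => (ev_lt_px k).mono
            fun z hz => hY.far z hz.le i, dv_const_mul]
          exact mul_nonpos_of_nonpos_of_nonneg (sub_nonpos.2 t1)
            (mul_nonneg (φ0 x) (mul_nonneg hY.a0 (hC.dv0 x k)))
        · have k' : D.F x < 0 := not_le.1 fun q => h ⟨q, not_lt.1 k⟩
          rcases h2 x k' with q | q
          · simp [q, hv.v0 x k']
          · simp [image_eq_zero_of_notMem_tsupport q]
    simp only [Pi.add_apply, Pi.sub_apply, D.met.dv_smul (hφ.diff x) (hY.sm.dv (by simp) x)]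
    linarith)
  rw [integral_add' i3 (i4.const_mul _), integral_const_mul, k1] at k3
  rw [integral_sub' (i1.const_mul t) i2, integral_add' i6 i7, integral_const_mul,
    integral_const_mul, k2, integral_indicator mS, integral_indicator mK] at k4
  have k5 := mul_le_mul_of_nonneg_left (hY.slack hM hs) (abs_nonneg C)
  have k6 := mul_le_mul_of_nonneg_left (hv.slack hC hM hs hY) (abs_nonneg C)
  simp only [Pi.sub_apply, Function.comp] at k3
  nlinarith [mul_le_mul_of_nonneg_left k4 hs.le, mul_le_mul_of_nonneg_left k6 hs.le]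

theorem bv : BV := by
  intro n M _ D m P κ R1 R2 ε c l Z W _ π ν α β η hE hC hO hM
  by_cases hβ : β = 0
  · have h : ∀ (φ : M → ℝ) (S : Set M), ∫ w, φ (π w) ∂β ≤
        c * κ * ∫ x in S, gn D.g φ x * dens D.g x := fun φ S => by
      rw [hβ, integral_zero_measure]
      exact mul_nonneg (mul_nonneg hM.c0 hE.κ0.le)
        (integral_nonneg fun x => mul_nonneg (gn_nonneg _ _ _) (dens_nonneg _ _))
    exact ⟨by simp [hβ], fun φ _ _ _ => ⟨h φ _, fun _ _ _ _ _ _ => h φ _⟩⟩
  obtain ⟨hs, hA⟩ := pos_of hM hβ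
  obtain ⟨a, hY⟩ := exists_gd hO hA
  have hi := inside hC hM hs hY
  obtain ⟨v, hv⟩ := exists_du hC hM hs
  refine ⟨hi, fun φ hφ φc φ0 => ⟨hv.fin hC hM hs hi hY hφ φc φ0 le_rfl zero_le_one
    (isClosed_le continuous_const D.dom.1.cont).measurableSet
    (.of_forall fun x hx => hv.v0 x (not_le.1 hx)) fun _ _ => .inl rfl,
    fun V V1 V2 V3 ⟨R, V4⟩ φs => hv.fin hC hM hs hi hY hφ φc φ0 zero_le_one le_rfl
      V1.measurableSet.compl ?_ fun x hx => .inr fun k => hx.not_gt (φs k)⟩⟩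
  simp only [mem_compl_iff, not_not]
  refine P366SB.cst_one D.met V1 V2 hv.ms (fun x => (abs_of_nonneg (hv.bd x).1).trans_le
    (hv.bd x).2) (fun X hX K hK KV X0 => ?_) (by linarith [hE.n3]) V4 hv.v1
  obtain ⟨ρ, -, hρ⟩ := bdd_px hK
  have h1 := hv.cur hC hM hs.le hi hX fun x hx => X0 x fun k => hx.not_ge (hρ x k)
  have h2 : β (π ⁻¹' K) = 0 := hK.induction_on (p := fun s => β (π ⁻¹' s) = 0) (by simp)
    (fun s t h k => measure_mono_null (preimage_mono h) k)
    (fun s t h k => measure_union_null h k) fun x hx =>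
      let ⟨O, o1, o2⟩ := (V3 (KV hx)).2; ⟨O, mem_nhdsWithin_of_mem_nhds o1, o2⟩
  rw [integral_eq_zero_of_ae ((measure_eq_zero_iff_ae_notMem.1 h2).mono fun w hw => by
    simp [gp, X0 _ hw])] at h1
  simp only [mul_assoc]
  exact (mul_eq_zero.1 (neg_eq_zero.1 h1.symm)).resolve_left hs.ne'

end Vale.Agent.P366BV
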